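import Vale.Agent.P084.Asm9

namespace Vale.Agent.Results.P084.AFinDim

open Metric

theorem result {X Y : Type*} [NormedAddCommGroup X] [NormedSpace ℝ X] [NormedAddCommGroup Y] [NormedSpace ℝ Y]
    (h : FiniteDimensional ℝ X ∨ FiniteDimensional ℝ Y)
    (f : sphere (0 : X) 1 → sphere (0 : Y) 1) (hf : Isometry f) (hs : Function.Surjective f) :
    ∃ T : X ≃ₗᵢ[ℝ] Y, ∀ x : sphere (0 : X) 1, T x = f x := by
  rcases h with h | h
  · haveI := Vale.Agent.P084.A9.fin9 f hf hs
    exact Vale.Agent.P084.A9.main f hf hs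
  · let e : sphere (0 : X) 1 ≃ᵢ sphere (0 : Y) 1 := ⟨Equiv.ofBijective f ⟨hf.injective, hs⟩, hf⟩
    haveI := Vale.Agent.P084.A9.fin9 e.symm e.symm.isometry e.symm.surjective
    exact Vale.Agent.P084.A9.main f hf hs

end Vale.Agent.Results.P084.AFinDim
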